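import Vale.Agent.P014Y.F.Ra.Lv0
import Vale.Agent.P014Y.F.St

/-!
# P014Y, block RA: the action at finite level is conjugate self dual; isotropy (helper6)
-/

set_option linter.all false

noncomputable section

namespace Vale.Agent.P014Y.F.Ra

open NumberField Matrix Filter
open Vale.Agent.P022 Vale.Agent.P022K Vale.Agent.P014U
open Vale.Agent.P022K.G2 (In St ip)
open Vale.Agent.P004K (RC1 RC2 Hc Iq)
open Vale.Agent.P022D.W (dec)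
open Vale.Agent.P022.H443 (inP)
open Vale.Agent.P022E.GW (Ov Fb)
open Vale.Agent.P027M.S (Inert)
open P004F.Pr (ac ac_add ac_smul ac_zero)
open Rc (Cy)
open scoped Pointwise Classical

variable [Pp] {e : Crv} {b : Fld e} {j c : ℕ} {Ψ : GQ → Rj j}

theorem aa_eq (b : Fld e) (Ψ : GQ → Rj j) (g : GQ) : b.aa j Ψ g = Ψ g • rj e j g := rfl

theorem Chr.pos (h : b.Chr j c Ψ) : 0 < c := Nat.pos_of_ne_zero h.sq.ne_zero

theorem sm {R : Type} [CommRing R] (x y : R) (A B : M2 R) : (x * y) • (A * B) = x • A * y • B :=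
  (smul_mul_smul_comm ..).symm

theorem aa_mul (h : b.Chr j c Ψ) {g g' : GQ} (m : g ∈ b.Γ) (m' : g' ∈ b.Γ) :
    b.aa j Ψ (g * g') = b.aa j Ψ g * b.aa j Ψ g' := by
  rw [aa_eq, aa_eq, aa_eq, h.mul g m g' m', map_mul, sm]

theorem aa_one {g : GQ} (h1 : Ψ g = 1) (h3 : rj e j g = 1) : b.aa j Ψ g = 1 := by
  rw [aa_eq, h1, h3, one_smul]

theorem aa_unr (r2 : RC2) (h : b.Chr j c Ψ) {l : ℕ} {P : Ideal (𝓞 Qb)} (ho : Ov l P)
    (hl : l ∉ b.T c) {g : GQ} (m : g ∈ b.Γ) (hg : Inert P g) : b.aa j Ψ g = 1 := by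
  have n1 : l ∉ e.S := fun k => hl (Finset.mem_union_left _ (List.mem_toFinset.2 k))
  refine aa_one (h.ker g (unr_hc r2 b.iq (Chr.pos h) ho (fun d => hl (Finset.mem_union_right _
    (Nat.mem_primeFactors.2 ⟨ho.1, d, h.sq.ne_zero⟩))) m hg)) ?_
  rw [rj_apply, r_inert ho n1 hg]
  exact (RingHom.mapMatrix (cj j)).map_one

/-- **the action is good** -/
theorem gd (r1 : RC1) (r2 : RC2) (h : b.Chr j c Ψ) {T : Finset ℕ} (le : b.T c ⊆ T)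
    (pr : ∀ l ∈ T, l.Prime) : Gd b.Γ T (b.aa j Ψ) where
  opn := H916.isOpen_GK _
  idx := gk_idx b.iq b.cc
  cx := gk_cx b.iq
  two := le (Finset.mem_union_left _ (List.mem_toFinset.2 e.two))
  pr := pr
  one := aa_one (h.ker 1 (one_mem _)) (map_one _)
  mul g m g' m' := aa_mul h m m'
  lc := ⟨Hc b.j c ⊓ (rj e j).ker, (r1 _ _ b.iq c (Chr.pos h)).2.1.inter (rj_open e j),
    fun w _ m => aa_one (h.ker w m.1) m.2⟩
  unr g m := fun ⟨l, hl, P, ho, hg⟩ => aa_unr r2 h ho (fun k => hl (le k)) m hg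
  pm := le (T_pp b c)

theorem psi_cj (r1 : RC1) (h : b.Chr j c Ψ) {s g : GQ} (hs : s ∉ b.Γ) (m : g ∈ b.Γ) :
    Ψ (s⁻¹ * g * s) * Ψ g = 1 := by
  have a := (r1 _ _ b.iq c (Chr.pos h)).2.2.2.2.1 s⁻¹ (by simpa using hs) g m
  rw [inv_inv] at a
  rw [← h.mul _ (by simpa using b.Γ.mul_mem a.1 (b.Γ.inv_mem m)) g m, h.ker _ a]

/-- **the action is conjugate self dual** -/
theorem sdu (r1 : RC1) (h : b.Chr j c Ψ) {N : ℕ} (hN : j ≤ N) :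
    Sd N b.Γ b.c (rj e j) Ψ (b.aa j Ψ) where
  two := pow_eq_zero_of_le hN (two_Rj j)
  out := c_out b
  eq g _ := aa_eq b Ψ g
  mul := map_mul _
  det g _ k hk := det_rj hN hk
  cj g m := psi_cj r1 h (c_out b) m

section
variable (k : b.Kp j c Ψ)

theorem kp_mem : b.c * k.φ ∈ b.Γ := H20.mul_mem' b.iq.two (c_out b) k.kp.out

theorem kp_eq : k.φ = b.c * (b.c * k.φ) := by rw [← mul_assoc, c_sq, one_mul]

/-- the Frobenius element acts as the complex conjugation -/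
theorem kp_rj : rj e j k.φ = (e.r b.c).map (cj j) := by
  rw [kp_eq k, map_mul, rj_one (g := b.c * k.φ) fun i i' => (pow_dvd_pow _ j.le_succ).trans (k.tr i i'),
    mul_one, rj_apply]

theorem kp_tr : (rj e j k.φ).trace = 0 := by
  rw [kp_rj, ← AddMonoidHom.map_trace, tr_conj b.cc, map_zero]

theorem kp_psi : Ψ (b.c⁻¹ * k.φ) = 1 := by rw [c_inv, k.psi]

theorem kp_hc (r1 : RC1) {c' : ℕ} (h : 0 < c') : k.φ ^ 2 ∈ Hc b.j c' := by
  have a := (r1 _ _ b.iq c' h).2.2.2.2.1 _ (c_out b) _ (kp_mem k)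
  rwa [c_inv, ← kp_eq k, mul_assoc, ← kp_eq k, ← sq] at a

/-- **Kolyvagin primes** -/
theorem kl (r1 : RC1) (r2 : RC2) (h : b.Chr j c Ψ) :
    Kl (j + 1) b.Γ (b.aa j Ψ) k.l k.P k.φ k.τ where
  toKp := k.kp
  sq := aa_one (h.ker _ (kp_hc k r1 (Chr.pos h)))
    (by rw [sq, map_mul, kp_rj, rc_sq])
  ine i hi := aa_unr r2 h k.kp.ov k.out (k.kp.ur hi) hi

end

section
variable {M : Type} [AddCommGroup M] [Module (Rj j) M] {x : GQ → Fin 2 → M}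

/-- the singular coordinates at a Kolyvagin prime -/
def sk (w : ℕ → GQ → ℕ) (k : b.Kp j c Ψ) (x : GQ → Fin 2 → M) : Fin 2 → M :=
  (w k.l k.τ : Rj j) • rot (ac ((e.r b.c).map (cj j)) (x k.τ))

theorem sc_eq (w : ℕ → GQ → ℕ) (k : b.Kp j c Ψ) :
    sc w b.c (rj e j) Ψ x k.l k.φ k.τ = sk w k x := by
  simp only [sc, sk, kp_psi, kp_rj, mul_one]

/-- the local conditions of a Selmer cocycle; `η` kills the local cohomology at the primes without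
condition -/
theorem lo_sel (r1 : RC1) (r2 : RC2) (h : b.Chr j c Ψ) {T : Finset ℕ} {ε : GQ → Fin 2 → Rj j}
    {t : M} {m : e.σ → Fin 2 → M} (X : b.Sel T (b.aa j Ψ) ε x t m) {Z : Submodule (Rj j) M}
    (ht : t ∈ Z) (η : Rj j) {p : ℕ} (hv : p ≠ pp → p ∉ e.σ → ∀ P, Ov p P → ∃ u ∈ b.Γ,
      ∃ μ, ∀ g ∈ b.Γ ⊓ dec (u • P), η • x g = ac (b.aa j Ψ g - 1) μ) :
    Lo b.Γ b.c (b.aa j Ψ) (η • x) x Z Z p := by
  have G := (gd r1 r2 h (Finset.Subset.refl _) fun _ => T_prime).toGd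
  by_cases h2 : p = pp
  · have q : Tq (b.Γ ⊓ dec (e.P pp)) (b.aa j Ψ) x Z := ⟨0, fun g hg i => by
      rw [ac_zero, sub_zero, Pi.zero_apply, sub_zero, X.sv g hg.2 i]; exact Z.smul_mem _ ht⟩
    rw [h2]
    exact Lo.str G (c_out b) (e.ov pp e.pm) (q.smul η) q
  by_cases hσ : p ∈ e.σ
  · have q := tq_of (D := b.Γ ⊓ dec (e.P p)) (fun g hg => X.sp ⟨p, hσ⟩ g hg.2) Z
    exact Lo.str G (c_out b) (e.ov p (List.mem_toFinset.1 (Finset.mem_filter.1 hσ).1)) (q.smul η) q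
  · intro P ho
    obtain ⟨u, hu, μ, k⟩ := hv h2 hσ P ho
    exact ⟨u, hu, .inl (tq_of (x := η • x) k Z)⟩

variable {ι : Type} [Fintype ι] {w : ℕ → GQ → ℕ}

/-- **isotropy at finite level**, for all bilinear maps -/
theorem lev_eta (r1 : RC1) (r2 : RC2) (H : Rw (j + 1) w) (h : b.Chr j c Ψ) (k : ι → b.Kp j c Ψ)
    (inj : Function.Injective fun i => (k i).l) {T : Finset ℕ}
    (hT : ∀ p, p ∈ T ↔ p ∈ b.T c ∨ ∃ i, (k i).l = p) {ε : GQ → Fin 2 → Rj j}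
    {t : M} {m : e.σ → Fin 2 → M} (X : b.Sel T (b.aa j Ψ) ε x t m) {Z : Submodule (Rj j) M}
    (ht : t ∈ Z) (η : Rj j) (hv : ∀ p ∈ b.T c, p ≠ pp → p ∉ e.σ → ∀ P, Ov p P → ∃ u ∈ b.Γ,
      ∃ μ, ∀ g ∈ b.Γ ⊓ dec (u • P), η • x g = ac (b.aa j Ψ g - 1) μ) {f s : ι × Fin 2 → M}
    (hf : ∀ i n, f (i, n) - x ((k i).φ ^ 2) n ∈ Z) (hs : ∀ i n, s (i, n) - sk w (k i) x n ∈ Z)
    {A : Type} [AddCommGroup A] [Module (Rj j) A] (β : M →ₗ[Rj j] M →ₗ[Rj j] A)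
    (hZ : ∀ z ∈ Z, β z = 0) (hZ' : ∀ z ∈ Z, ∀ u, β u z = 0) :
    η • ∑ i, (β (f i) (s i) + β (s i) (f i)) = 0 :=
  iso_eta H (gd r1 r2 h (fun p m => (hT p).2 (.inl m)) fun p m => ((hT p).1 m).elim T_prime
      fun ⟨i, e⟩ => e ▸ (k i).kp.ov.1).toGd ((hT _).2 (.inl (T_pp b c))) (sdu r1 h j.le_succ) X.toCc
    inj (fun i => kl (k i) r1 r2 h)
    (fun i => kp_tr (k i)) η (fun p m n => lo_sel r1 r2 h X ht η
      (hv p (((hT p).1 m).resolve_right fun ⟨i, e⟩ => n i e))) hf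
    (fun i n => by rw [sc_eq]; exact hs i n) β hZ hZ'

/-- **isotropy at finite level**, as a matrix identity -/
theorem lev_mat (r1 : RC1) (r2 : RC2) (H : Rw (j + 1) w) (h : b.Chr j c Ψ) (k : ι → b.Kp j c Ψ)
    (inj : Function.Injective fun i => (k i).l) {T : Finset ℕ}
    (hT : ∀ p, p ∈ T ↔ p ∈ b.T c ∨ ∃ i, (k i).l = p) {ε : GQ → Fin 2 → Rj j}
    {t : M} {m : e.σ → Fin 2 → M} (X : b.Sel T (b.aa j Ψ) ε x t m) {Z : Submodule (Rj j) M}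
    (ht : t ∈ Z) (η : Rj j) (hv : ∀ p ∈ b.T c, p ≠ pp → p ∉ e.σ → ∀ P, Ov p P → ∃ u ∈ b.Γ,
      ∃ μ, ∀ g ∈ b.Γ ⊓ dec (u • P), η • x g = ac (b.aa j Ψ g - 1) μ)
    {I κ : Type} [Fintype I] [Fintype κ] (B : Matrix κ I (Rj j)) (π : (I → Rj j) →ₗ[Rj j] M)
    (h1 : Function.Surjective π) (h2 : ∀ v, π v ∈ Z → v ∈ Submodule.span (Rj j) (Set.range B))
    {f s : ι × Fin 2 → I → Rj j} (hf : ∀ i n, π (f (i, n)) - x ((k i).φ ^ 2) n ∈ Z)
    (hs : ∀ i n, π (s (i, n)) - sk w (k i) x n ∈ Z) : ∃ U U' : Matrix κ I (Rj j),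
      η • ∑ i, (vecMulVec (f i) (s i) + vecMulVec (s i) (f i)) = Bᵀ * U + U'ᵀ * B :=
  iso_mat H (gd r1 r2 h (fun p m => (hT p).2 (.inl m)) fun p m => ((hT p).1 m).elim T_prime
      fun ⟨i, e⟩ => e ▸ (k i).kp.ov.1).toGd ((hT _).2 (.inl (T_pp b c))) (sdu r1 h j.le_succ) X.toCc
    inj (fun i => kl (k i) r1 r2 h)
    (fun i => kp_tr (k i)) η (fun p m n => lo_sel r1 r2 h X ht η
      (hv p (((hT p).1 m).resolve_right fun ⟨i, e⟩ => n i e))) B π h1 h2 hf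
    fun i n => by rw [sc_eq]; exact hs i n

end

end Vale.Agent.P014Y.F.Ra
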