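import Vale.Agent.P014Y.F.Ra.Ra
import Vale.Agent.P014Y.F.Defs
import Vale.Agent.P004F.Ra.Lv
import Vale.Agent.P014U.X4F.En.Rep
import Vale.Agent.P014U.X4S.A.Defs

/-!
# P014Y, block RA: the representation at finite level (helper6)
-/

set_option linter.all false

noncomputable section

namespace Vale.Agent.P014Y.F.Ra

open NumberField Matrix Filter
open Vale.Agent.P022 Vale.Agent.P022K Vale.Agent.P014U
open Vale.Agent.P022E.GW (Ov Fb)
open Vale.Agent.P027M.S (Inert)
open Rc (Cy)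
open scoped Pointwise Classical

export Vale.Agent.P004F.Ra (conj_out gk_cx gk_idx unr_hc map_zs sm_mul ac_sub_one tq_of)

variable [Pp]

theorem two_Rj (j : ℕ) : (pp : Rj j) ^ j = 0 := by
  have := Ideal.Quotient.eq_zero_iff_mem.2 (X4F.Pat.two_Im j)
  rwa [map_pow, map_natCast] at this

theorem two_Rj' (j : ℕ) : (pp : Rj j) ^ (j + 1) = 0 := by rw [pow_succ, two_Rj, zero_mul]

theorem cj_dvd {j : ℕ} {x : ℤ_[pp]} (h : (pp : ℤ_[pp]) ^ j ∣ x) : cj j x = 0 := by
  obtain ⟨y, rfl⟩ := h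
  rw [map_mul, map_pow, map_natCast, two_Rj, zero_mul]

variable {e : Crv}

theorem S_prime {p : ℕ} (h : p ∈ e.S) : p.Prime := (e.ov p h).1

theorem rep (e : Crv) : X4S.Rep e.rp e.S.toFinset :=
  X4F.En.rep_ok _ (List.mem_toFinset.2 e.pm) fun l hl h d => by
    rw [List.mem_toFinset] at h
    have p := Nat.prime_iff_prime_int.1 hl
    refine (p.dvd_or_dvd d).elim (fun k => h ((p.dvd_or_dvd k).elim (fun k => ?_) fun k => ?_))
      (e.bad l hl h).2.1
    · rw [(Nat.prime_dvd_prime_iff_eq hl Nat.prime_two).1 (by exact_mod_cast k)]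
      exact e.two
    · rw [(Nat.prime_dvd_prime_iff_eq hl pp_prime).1 (by exact_mod_cast k)]
      exact e.pm

/-- the representation at level `j` -/
def rj (e : Crv) (j : ℕ) : GQ →* M2 (Rj j) := (RingHom.mapMatrix (cj j)).toMonoidHom.comp e.r

theorem rj_apply (j : ℕ) (g : GQ) : rj e j g = (e.r g).map (cj j) := rfl

theorem rj_one {j : ℕ} {g : GQ} (h : ∀ i i', (pp : ℤ_[pp]) ^ j ∣ (e.r g - 1) i i') : rj e j g = 1 := by
  ext i i'
  have := cj_dvd (h i i')
  rw [Matrix.sub_apply, map_sub, sub_eq_zero] at this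
  refine this.trans ?_
  simp only [one_apply]
  split
  exacts [map_one _, map_zero _]

theorem rj_open (e : Crv) (j : ℕ) : IsOpen ((rj e j).ker : Set GQ) := by
  refine Subgroup.isOpen_of_mem_nhds _ (g := 1) ?_
  have : ∀ i i', ∀ᶠ g in nhds 1, (pp : ℤ_[pp]) ^ j ∣ (e.r g - 1) i i' := fun i i' => by
    have c : Continuous fun g => e.r g i i' := X4M.TE.cont_mt _ i i'
    filter_upwards [c.continuousAt (x := 1) (Metric.closedBall_mem_nhds _
      (show (0 : ℝ) < (pp : ℝ) ^ (-j : ℤ) from zpow_pos (Nat.cast_pos.2 pp_pos) _))] with g hg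
    rw [Set.mem_preimage, map_one, mem_closedBall_iff_norm] at hg
    exact X4F.Pat.dvd_iff_norm.2 hg
  filter_upwards [eventually_all.2 fun i => eventually_all.2 (this i)] with g hg using rj_one hg

theorem r_inert {l : ℕ} {P : Ideal (𝓞 Qb)} (ho : Ov l P) (hl : l ∉ e.S) {g : GQ} (hg : Inert P g) :
    e.r g = 1 := by
  have := (rep e).mt_inert ho (by simpa using hl) hg
  ext i i'
  refine Subtype.ext ((congrFun (congrFun this i) i').trans ?_)
  simp only [one_apply]
  split <;> rfl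

/-- the determinant is cyclotomic -/
theorem det_dvd (e : Crv) {n k : ℕ} {g : GQ} (h : Cy n g k) : (pp : ℤ_[pp]) ^ n ∣ (e.r g).det - k := by
  obtain ⟨ζ, hζ⟩ := X4S.Aq.ex_prim n
  set x := (e.r g).det with hx
  have e0 : X4S.ep e.rp g = x := by
    rw [X4S.ep, X4S.mt, Crv.rp, X4M.TE.rep_val, ← RingHom.map_det]; rfl
  have s := Ideal.mem_span_singleton.1 (x.appr_spec n)
  have e1 := X4S.cyc_ep (rep e) g n (x.appr n) ζ hζ.pow_eq_one (by
    have := (PadicInt.norm_le_pow_iff_mem_span_pow _ n).2 (x.appr_spec n)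
    rw [e0, ← PadicInt.coe_natCast, ← PadicInt.coe_sub, PadicInt.padic_norm_e_of_padicInt]
    simpa using this)
  have := (isOfFinOrder_iff_pow_eq_one.2 ⟨_, pow_pos pp_pos n, hζ.pow_eq_one⟩).pow_eq_pow_iff_modEq.1
    (e1.symm.trans (h ζ hζ.pow_eq_one))
  rw [← hζ.eq_orderOf] at this
  have d : (pp : ℤ_[pp]) ^ n ∣ (k : ℤ_[pp]) - x.appr n := by
    exact_mod_cast (Int.cast_dvd_cast (α := ℤ_[pp]) _ _ this.dvd :)
  rw [← sub_sub_sub_cancel_right x k (x.appr n)]
  exact dvd_sub (by simpa using s) d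

theorem det_rj {j n k : ℕ} (hn : j ≤ n) {g : GQ} (h : Cy n g k) : (rj e j g).det = k := by
  have := cj_dvd ((pow_dvd_pow _ hn).trans (det_dvd e h))
  rw [map_sub, map_natCast, sub_eq_zero, RingHom.map_det] at this
  exact this

theorem tr_conj {c : GQ} (hc : IsConj c) : (e.r c).trace = 0 := by
  have a : e.r c * e.r c = 1 := by rw [← map_mul, P004M.TE.conj_sq (hq e.par.disc) hc, map_one]
  have d : (e.r c).det = -1 := X4M.TE.det_conj _ hc
  have a0 := congrFun (congrFun a 0) 0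
  have a1 := congrFun (congrFun a 1) 1
  simp only [mul_apply, Fin.sum_univ_two, one_apply_eq] at a0 a1
  rw [det_fin_two] at d
  rw [trace_fin_two]
  exact pow_eq_zero_iff two_ne_zero |>.1 (by linear_combination a0 + a1 + 2 * d)

variable {b : Fld e} {j c : ℕ}

theorem c_sq (b : Fld e) : b.c * b.c = 1 := P004M.TE.conj_sq (hq e.par.disc) b.cc

theorem c_inv (b : Fld e) : b.c⁻¹ = b.c := inv_eq_of_mul_eq_one_right (c_sq b)

theorem c_out (b : Fld e) : b.c ∉ b.Γ := conj_out b.iq b.cc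

theorem T_prime {l : ℕ} (h : l ∈ b.T c) : l.Prime :=
  (Finset.mem_union.1 h).elim (fun k => S_prime (List.mem_toFinset.1 k)) Nat.prime_of_mem_primeFactors

theorem T_pp (b : Fld e) (c : ℕ) : pp ∈ b.T c := Finset.mem_union_left _ (List.mem_toFinset.2 e.pm)

theorem rc_sq : (e.r b.c).map (cj j) * (e.r b.c).map (cj j) = 1 := by
  rw [← rj_apply, ← map_mul, c_sq, map_one]

end Vale.Agent.P014Y.F.Ra
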