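import Vale.Agent.P014Y.F.Rec.St
import Vale.Agent.P014U.X4F.Ra.Ra
import Vale.Agent.P014U.X4F.Lt.Grp

/-!
# P014Y, block RA: reciprocity for a conjugate self dual action (adapter; helper6)
-/

set_option linter.all false

noncomputable section

namespace Vale.Agent.P014Y.F.Ra

open NumberField
open Vale.Agent.P022 Vale.Agent.P022K Vale.Agent.P022K.G2 Vale.Agent.P014U
open Vale.Agent.P022D.W (dec inP_le_dec conj_inP phi_mem)
open Vale.Agent.P022.H443 (inP)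
open Vale.Agent.P022E.GW (Ov Fb)
open Vale.Agent.P027M.S (Inert)
open P004F (M2 Cc)
open P004F.Pr (ac ac_add ac_smul ac_zero Gd)
open Rc (Cy Co Tv Ur Kp Tr REC)
open scoped Pointwise

export Vale.Agent.P004F.Ra (wp ac_mul ac_one ac_sm ac_neg ac_map wp_ac wp_tr wp_addl wp_addr wp_smull
  wp_smulr wp_negr aH aH_one wH nrm mul_out x_one a_conj x_conj sq_mem Tq Lo dec_cj cj_mem co ur rot
  sc mat Tq.mono Tq.smul Tq.map Lo.str Lo.rel Lo.all Cc.map Cc.smul)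
export Vale.Agent.P014U.X4F.Ra (two_smul_zero)

variable [Pp] {R M M' A : Type} [CommRing R] [AddCommGroup M] [Module R M] [AddCommGroup M']
  [Module R M'] [AddCommGroup A] [Module R A]

/-- Frobenius acts by `l` on tame inertia -/
theorem tame {B : Type} [AddCommGroup B] {N l : ℕ} {P : Ideal (𝓞 Qb)} (ho : Ov l P) (hl : l ≠ pp)
    (hB : ∀ x : B, pp ^ N • x = 0) {f : GQ → B} {W : Subgroup GQ} (hW : IsOpen (W : Set GQ))
    (h0 : ∀ w ∈ W, Inert P w → f w = 0)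
    (ad : ∀ g h, Inert P g → Inert P h → f (g * h) = f g + f h) {φ i : GQ} (hφ : Fb l P φ)
    (hi : i ∈ inP P) : f (φ * i * φ⁻¹) = l • f i := by
  obtain ⟨V, hV, le⟩ := ex_lv' hW
  haveI := hV.nrm
  obtain ⟨k, _, _, χ, -, -, h1⟩ := CH.Loc.chi_data V hV.opn ho
  refine add_cyc (l := l) (V := V) (fun x hx => ?_) ad (fun w m => h0 w (le m)) hi
    (conj_inP (phi_mem ho.1 ho.2.1 hφ) hi) ?_
  · rw [← addOrderOf_dvd_iff_nsmul_eq_zero] at hx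
    exact AddMonoid.addOrderOf_eq_one_iff.1 (Nat.eq_one_of_dvd_coprimes
      ((X4F.Lt.cop_l ho hl).pow_right N) hx
      (addOrderOf_dvd_iff_nsmul_eq_zero.2 (hB x)))
  · simpa [mul_assoc] using (h1 φ hφ i hi).conj (i ^ l)⁻¹

theorem neg_of {B : Type} [AddCommGroup B] {N l : ℕ} (hB : ∀ x : B, pp ^ N • x = 0)
    (h : pp ^ N ∣ l + 1) (x : B) : l • x = -x := by
  obtain ⟨k, hk⟩ := h
  rw [eq_neg_iff_add_eq_zero, ← succ_nsmul, hk, mul_nsmul', hB]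

variable {N : ℕ} {Γ : Subgroup GQ} {T T' : Finset ℕ} {a r : GQ → M2 R} {ψ : GQ → R} {c : GQ}
  {x : GQ → Fin 2 → M} {y : GQ → Fin 2 → M'}

/-- a Kolyvagin prime for the action `a` -/
structure Kl (N : ℕ) (Γ : Subgroup GQ) (a : GQ → M2 R) (l : ℕ) (P : Ideal (𝓞 Qb)) (φ τ : GQ) :
    Prop extends Kp N Γ l P φ τ where
  sq : a (φ ^ 2) = 1
  ine : ∀ i ∈ inP P, a i = 1

section
variable {l : ℕ} {P : Ideal (𝓞 Qb)} {φ τ : GQ}

theorem Kl.add (K : Kl N Γ a l P φ τ) (X : Cc Γ T' a x) (g h : GQ) (hg : Inert P g)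
    (hh : Inert P h) : x (g * h) = x g + x h := by
  rw [X.coc g (K.ur hg) h (K.ur hh), K.ine g hg, ac_one]

theorem Kl.frob (K : Kl N Γ a l P φ τ) (h2 : (pp : R) ^ N = 0) (X : Cc Γ T' a x) {i : GQ}
    (hi : i ∈ inP P) : x (φ * i * φ⁻¹) = -x i := by
  obtain ⟨W, hW, e⟩ := X.lc
  rw [tame K.ov K.ne (two_smul_zero h2) hW (fun w m _ => e w m) (K.add X) K.fb hi,
    neg_of (two_smul_zero h2) K.dv]

theorem Kl.cj (K : Kl N Γ a l P φ τ) {i : GQ} (hi : i ∈ inP P) : φ⁻¹ * i * φ ∈ inP P := by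
  simpa using conj_inP (inv_mem (phi_mem K.ov.1 K.ov.2.1 K.fb)) hi

theorem Kl.frob' (K : Kl N Γ a l P φ τ) (h2 : (pp : R) ^ N = 0) (X : Cc Γ T' a x) {i : GQ}
    (hi : i ∈ inP P) : x (φ⁻¹ * i * φ) = -x i := by
  have := K.frob h2 X (K.cj hi)
  rw [show φ * (φ⁻¹ * i * φ) * φ⁻¹ = i by group] at this
  rw [this, neg_neg]

theorem Kl.pw (K : Kl N Γ a l P φ τ) (G : Gd Γ T a) (X : Cc Γ T' a x) (m : ℕ) :
    a ((φ ^ 2) ^ m) = 1 ∧ x ((φ ^ 2) ^ m) = m • x (φ ^ 2) := by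
  induction m with
  | zero => simp [G.one, x_one G X]
  | succ m ih =>
    rw [pow_succ, G.mul _ (pow_mem (sq_mem G φ) m) _ (sq_mem G φ),
      X.coc _ (pow_mem (sq_mem G φ) m) _ (sq_mem G φ), ih.1, ih.2, K.sq, ac_one, mul_one, succ_nsmul]
    exact ⟨rfl, rfl⟩

/-- **the local values** are determined by the values at `φ ^ 2` and `τ` -/
theorem loc (G : Gd Γ T a) (K : Kl N Γ a l P φ τ) (h2 : (pp : R) ^ N = 0) (X : Cc Γ T' a x)
    {g : GQ} (hg : g ∈ Γ ⊓ dec P) : a g = 1 ∧ ∃ m n : ℕ, x g = m • x (φ ^ 2) + n • x τ := by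
  obtain ⟨W, hW, e⟩ := X.lc
  obtain ⟨V, hV, e'⟩ := G.lc
  obtain ⟨j, i, hi, k⟩ := (P004S.lt l P K.ov).2 φ g K.fb hg.2 (W ⊓ V ⊓ Γ)
    ((hW.inter hV).inter G.opn)
  obtain ⟨n, hn⟩ := X4F.Lt.lt1 K.ov N K.ne K.gn hi hW
  have i1 : i ∈ Γ := K.ur hi
  have m1 : φ ^ j * i ∈ Γ := by simpa using Γ.mul_mem hg.1 (Γ.inv_mem k.2)
  have m2 : φ ^ j ∈ Γ := by simpa using mul_mem m1 (inv_mem i1)
  obtain ⟨m, rfl | rfl⟩ := j.even_or_odd'
  · have e1 : g = φ ^ (2 * m) * i * ((φ ^ (2 * m) * i)⁻¹ * g) := by group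
    have p := K.pw G X m
    rw [← pow_mul] at p
    refine ⟨?_, m, n, ?_⟩
    · rw [e1, G.mul _ m1 _ k.2, e' _ k.2 k.1.2, G.mul _ m2 _ i1, p.1, K.ine i hi, mul_one, mul_one]
    · rw [e1, X.coc _ m1 _ k.2, e _ k.1.1, ac_zero, add_zero, X.coc _ m2 _ i1, p.1, p.2, ac_one,
        hn _ x (two_smul_zero h2) (fun g _ m => e g m) (K.add X)]
  · rw [pow_succ, pow_mul, Subgroup.mul_mem_cancel_left _ (pow_mem (sq_mem G φ) m)] at m2
    exact absurd m2 K.out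

theorem loc0 (G : Gd Γ T a) (K : Kl N Γ a l P φ τ) (h2 : (pp : R) ^ N = 0) (X : Cc Γ T' a x)
    (e1 : x (φ ^ 2) = 0) (e2 : x τ = 0) {g : GQ} (hg : g ∈ Γ ⊓ dec P) : x g = 0 := by
  obtain ⟨-, m, n, e⟩ := loc G K h2 X hg
  rw [e, e1, e2, smul_zero, smul_zero, add_zero]

/-- the values on inertia are multiples of the value at `τ` -/
theorem loc_in (K : Kl N Γ a l P φ τ) (h2 : (pp : R) ^ N = 0) (X : Cc Γ T' a x)
    {i : GQ} (hi : i ∈ inP P) : ∃ n : ℕ, x i = n • x τ := by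
  obtain ⟨W, hW, e⟩ := X.lc
  obtain ⟨n, hn⟩ := X4F.Lt.lt1 K.ov N K.ne K.gn hi hW
  exact ⟨n, hn _ x (two_smul_zero h2) (fun g _ m => e g m) (K.add X)⟩

end

/-- `a = ψ • r` on `Γ`, the determinant of `r` is cyclotomic, `ψ` is inverted by `c` -/
structure Sd (N : ℕ) (Γ : Subgroup GQ) (c : GQ) (r : GQ → M2 R) (ψ : GQ → R) (a : GQ → M2 R) :
    Prop where
  two : (pp : R) ^ N = 0
  out : c ∉ Γ
  eq : ∀ g ∈ Γ, a g = ψ g • r g
  mul : ∀ g h, r (g * h) = r g * r h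
  det : ∀ g ∈ Γ, ∀ k, Cy N g k → (r g).det = k
  cj : ∀ g ∈ Γ, ψ (c⁻¹ * g * c) * ψ g = 1

theorem Kl.tr {l : ℕ} {P : Ideal (𝓞 Qb)} {φ τ : GQ} (K : Kl N Γ a l P φ τ) (G : Gd Γ T a)
    (hc : c ∉ Γ) : Tr (fun g => (aH (a (c⁻¹ * g * c)) : (Fin 2 → M) →+ _)) P φ := by
  have m : c⁻¹ * φ ∈ Γ := mul_out G (by simpa using hc) K.out
  refine ⟨aH_one ?_, fun i hi => aH_one ?_⟩
  · rw [show c⁻¹ * φ ^ 2 * c = c⁻¹ * φ * φ ^ 2 * (c⁻¹ * φ)⁻¹ by group,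
      a_conj G m (sq_mem G φ) K.sq]
  · rw [show c⁻¹ * i * c = c⁻¹ * φ * (φ⁻¹ * i * φ) * (c⁻¹ * φ)⁻¹ by group,
      a_conj G m (K.ur (K.cj hi)) (K.ine _ (K.cj hi))]

/-- the statement of `REC` for a given weight function -/
def Rw (N : ℕ) (w : ℕ → GQ → ℕ) : Prop :=
  ∀ (Γ : Subgroup GQ) (A M M' : Type) [AddCommGroup A] [AddCommGroup M] [AddCommGroup M']
    (B : M →+ M' →+ A) (ρ : GQ → M →+ M) (σ : GQ → M' →+ M') (a : GQ → M) (b : GQ → M')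
    (L : Finset ℕ) (P : ℕ → Ideal (𝓞 Qb)) (φ τ : ℕ → GQ),
    IsOpen (Γ : Set GQ) → Γ.index = 2 → (∀ v, Γ ⊓ St (ip v) = ⊥) → (∀ x : A, pp ^ N • x = 0) →
    Co Γ ρ a → Co Γ σ b →
    (∀ g ∈ Γ, ∀ k, Cy N g k → ∀ x y, B (ρ g x) (σ g y) = k • B x y) →
    (∀ l ∈ L, Kp N Γ l (P l) (φ l) (τ l) ∧ Tr ρ (P l) (φ l) ∧ Tr σ (P l) (φ l)) →
    (∀ p Q, Ov p Q → p ∉ L → ∃ g ∈ Γ, Tv (Γ ⊓ dec (g • Q)) ρ a ∨ Tv (Γ ⊓ dec (g • Q)) σ b ∨
      (p ≠ pp ∧ Ur (Γ ⊓ inP (g • Q)) ρ a ∧ Ur (Γ ⊓ inP (g • Q)) σ b)) →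
    ∑ l ∈ L, w l (τ l) • (B (a (φ l ^ 2)) (b (τ l)) - B (a (τ l)) (b (φ l ^ 2))) = 0

theorem ra0 {w : ℕ → GQ → ℕ} (H : Rw N w) (G : Gd Γ T a) (hp : pp ∈ T) (S : Sd N Γ c r ψ a)
    (X : Cc Γ T a x) (Y : Cc Γ T a y) (β : M →ₗ[R] M' →ₗ[R] A) (L : Finset ℕ)
    (P : ℕ → Ideal (𝓞 Qb)) (φ τ : ℕ → GQ) (K : ∀ l ∈ L, Kl N Γ a l (P l) (φ l) (τ l))
    (lo : ∀ p ∈ T, p ∉ L → Lo Γ c a x y ⊥ ⊥ p) :
    ∑ l ∈ L, ((w l (τ l) : R) * ψ (c⁻¹ * φ l)) • (wp β (x (φ l ^ 2)) (ac (r (φ l)) (y (τ l))) +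
      wp β (x (τ l)) (ac (r (φ l)) (y (φ l ^ 2)))) = 0 := by
  have c1 := co G X 1
  simp only [inv_one, one_mul, mul_one] at c1
  have := H Γ A _ _ (wH β (r c)) _ _ _ _ L P φ τ G.opn G.idx G.cx (two_smul_zero S.two) c1
    (co G Y c) (fun g hg k hk u v => ?_) (fun l hl => ⟨(K l hl).toKp, ⟨aH_one (K l hl).sq,
      fun i hi => aH_one ((K l hl).ine i hi)⟩, (K l hl).tr G S.out⟩) fun p Q ho hq => ?_
  · rw [← neg_eq_zero, ← Finset.sum_neg_distrib] at this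
    refine (Finset.sum_congr rfl fun l hl => ?_).trans this
    have k := K l hl
    have m : c⁻¹ * φ l ∈ Γ := mul_out G (by simpa using S.out) k.out
    have e : ∀ v : Fin 2 → M', ac (r c) (ac (a (c⁻¹ * φ l)) v) = ψ (c⁻¹ * φ l) • ac (r (φ l)) v :=
      fun v => by rw [S.eq _ m, ac_sm, ac_smul, ← ac_mul, ← S.mul, mul_inv_cancel_left]
    have e1 : y (c⁻¹ * φ l ^ 2 * c) = ac (a (c⁻¹ * φ l)) (y (φ l ^ 2)) := by
      rw [← x_conj G Y m (sq_mem G _) k.sq]; congr 1; group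
    have e2 : y (c⁻¹ * τ l * c) = -ac (a (c⁻¹ * φ l)) (y (τ l)) := by
      rw [← ac_neg, ← k.frob' S.two Y k.gn.1,
        ← x_conj G Y m (k.ur (k.cj k.gn.1)) (k.ine _ (k.cj k.gn.1))]
      congr 1; group
    change _ = -(w l (τ l) • (wp β _ (ac _ (y _)) - wp β _ (ac _ (y _))))
    rw [e1, e2, ac_neg, e, e, wp_negr, wp_smulr, wp_smulr, ← Nat.cast_smul_eq_nsmul R]
    module
  · change wp β (ac (a g) u) (ac (r c) (ac (a _) v)) = k • wp β u (ac (r c) v)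
    rw [S.eq g hg, S.eq _ (cj_mem G hg c), ac_sm, ac_sm, ac_smul, wp_smull, wp_smulr, ← ac_mul,
      ← S.mul, show c * (c⁻¹ * g * c) = g * c by group, S.mul, ac_mul, wp_ac, S.det g hg k hk,
      ← mul_smul, mul_comm, S.cj g hg, one_smul, Nat.cast_smul_eq_nsmul]
  · by_cases hT : p ∈ T
    · obtain ⟨g, hg, ⟨μ, h⟩ | ⟨μ, h⟩⟩ := lo p hT hq Q ho
      · exact ⟨g, hg, .inl ⟨μ, fun k hk => funext fun i => sub_eq_zero.1 (h k hk i)⟩⟩
      · exact ⟨g, hg, .inr (.inl ⟨μ, fun k hk => funext fun i =>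
          sub_eq_zero.1 (h _ ⟨cj_mem G hk.1 c, dec_cj hk.2⟩ i)⟩)⟩
    · have u1 := ur G X 1 (GW.ov_smul ho 1) hT
      simp only [inv_one, one_mul, mul_one] at u1
      exact ⟨1, Γ.one_mem, .inr (.inr ⟨fun e => hT (e ▸ hp), u1, ur G Y c (GW.ov_smul ho 1) hT⟩)⟩

theorem rw_of (h : REC) (N : ℕ) : ∃ w : ℕ → GQ → ℕ,
    (∀ l P τ, Ov l P → l ≠ pp → Gn l P τ → ¬ pp ∣ w l τ) ∧ Rw N w := h N

/-- numbers prime to `pp` are units -/
theorem unit_odd (h : (pp : R) ^ N = 0) {n : ℕ} (hn : ¬ pp ∣ n) : IsUnit (n : R) := by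
  obtain ⟨u, v, e⟩ := Nat.isCoprime_iff_coprime.2
    (((Nat.Prime.coprime_iff_not_dvd pp_prime).2 hn).pow_left N)
  have := congrArg (Int.cast : ℤ → R) e
  push_cast at this
  rw [h, mul_zero, zero_add] at this
  exact IsUnit.of_mul_eq_one_right _ this

variable {ι : Type} [Fintype ι] {l : ι → ℕ} {P : ι → Ideal (𝓞 Qb)} {φ τ : ι → GQ}
  {w : ℕ → GQ → ℕ}

/-- **reciprocity** for two cocycles and a bilinear map which kills `Z` and `Z'` -/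
theorem ra (H : Rw N w) (G : Gd Γ T a) (hp : pp ∈ T) (S : Sd N Γ c r ψ a) (X : Cc Γ T a x) (Y : Cc Γ T a y)
    (β : M →ₗ[R] M' →ₗ[R] A) {Z : Submodule R M} {Z' : Submodule R M'}
    (hZ : ∀ z ∈ Z, β z = 0) (hZ' : ∀ z ∈ Z', ∀ u, β u z = 0) (hl : Function.Injective l)
    (K : ∀ i, Kl N Γ a (l i) (P i) (φ i) (τ i)) (tr : ∀ i, (r (φ i)).trace = 0)
    (lo : ∀ p ∈ T, (∀ i, l i ≠ p) → Lo Γ c a x y Z Z' p) :
    ∑ i, ((w (l i) (τ i) : R) * ψ (c⁻¹ * φ i)) • (wp β (x (φ i ^ 2)) (ac (r (φ i)) (y (τ i))) -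
      wp β (ac (r (φ i)) (x (τ i))) (y (φ i ^ 2))) = 0 := by
  classical
  let β' : (M ⧸ Z) →ₗ[R] (M' ⧸ Z') →ₗ[R] A :=
    (Z'.liftQ (Z.liftQ β hZ).flip fun z hz => Submodule.linearMap_qext _ (LinearMap.ext fun u =>
      hZ' z hz u)).flip
  have e : ∀ u v, wp β' (Z.mkQ ∘ u) (Z'.mkQ ∘ v) = wp β u v := fun u v => rfl
  have := ra0 H G hp S (Cc.map X Z.mkQ) (Cc.map Y Z'.mkQ) β' (Finset.univ.image l)
    (Function.extend l P fun _ => ⊥) (Function.extend l φ 1) (Function.extend l τ 1)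
    (fun p hq => ?_) fun p hq n Q ho => ?_
  · rw [Finset.sum_image fun i _ j _ h => hl h] at this
    simp only [hl.extend_apply, ac_map, e] at this
    refine (Finset.sum_congr rfl fun i _ => ?_).trans this
    rw [wp_tr β _ (x (τ i)) _ (tr i), sub_eq_add_neg]
  · obtain ⟨i, -, rfl⟩ := Finset.mem_image.1 hq
    simpa only [hl.extend_apply] using K i
  · obtain ⟨g, hg, h⟩ := lo p hq (fun i e => n (Finset.mem_image.2 ⟨i, Finset.mem_univ i, e⟩)) Q ho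
    exact ⟨g, hg, h.imp (fun k => k.map _ fun z hz => (Submodule.Quotient.mk_eq_zero _).2 hz)
      fun k => k.map _ fun z hz => (Submodule.Quotient.mk_eq_zero _).2 hz⟩

/-- **isotropy** up to the factor `η` -/
theorem iso_eta (H : Rw N w) (G : Gd Γ T a) (hp : pp ∈ T) (S : Sd N Γ c r ψ a) (X : Cc Γ T a x)
    {Z : Submodule R M} (hl : Function.Injective l)
    (K : ∀ i, Kl N Γ a (l i) (P i) (φ i) (τ i)) (tr : ∀ i, (r (φ i)).trace = 0) (η : R)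
    (lo : ∀ p ∈ T, (∀ i, l i ≠ p) → Lo Γ c a (η • x) x Z Z p) {f s : ι × Fin 2 → M}
    (hf : ∀ i k, f (i, k) - x (φ i ^ 2) k ∈ Z)
    (hs : ∀ i k, s (i, k) - sc w c r ψ x (l i) (φ i) (τ i) k ∈ Z)
    (β : M →ₗ[R] M →ₗ[R] A) (hZ : ∀ z ∈ Z, β z = 0) (hZ' : ∀ z ∈ Z, ∀ u, β u z = 0) :
    η • ∑ j, (β (f j) (s j) + β (s j) (f j)) = 0 := by
  have := ra H G hp S (Cc.smul X η) X β hZ hZ' hl K tr lo
  have e : ∀ {u u' v v'}, u - u' ∈ Z → v - v' ∈ Z → β u v = β u' v' := fun {u u' v v'} h h' => by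
    have a1 := hZ _ h
    have a2 := hZ' _ h' u'
    rw [map_sub, sub_eq_zero] at a1 a2
    rw [a1, a2]
  rw [← neg_eq_zero, ← Finset.sum_neg_distrib] at this
  rw [Fintype.sum_prod_type, Finset.smul_sum]
  refine (Finset.sum_congr rfl fun i _ => ?_).trans this
  rw [Fin.sum_univ_two, e (hf i 0) (hs i 0), e (hf i 1) (hs i 1), e (hs i 0) (hf i 0),
    e (hs i 1) (hf i 1)]
  simp only [Pi.smul_apply, ac_smul, wp_smull, sc, rot, wp, map_smul, map_neg, LinearMap.smul_apply,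
    LinearMap.neg_apply, Matrix.cons_val_zero, Matrix.cons_val_one, Matrix.cons_val_fin_one]
  module

/-- **isotropy** in the words of the block of pure algebra -/
theorem iso (H : Rw N w) (G : Gd Γ T a) (hp : pp ∈ T) (S : Sd N Γ c r ψ a) (X : Cc Γ T a x) (t : M)
    (hl : Function.Injective l) (K : ∀ i, Kl N Γ a (l i) (P i) (φ i) (τ i))
    (tr : ∀ i, (r (φ i)).trace = 0)
    (lo : ∀ p ∈ T, (∀ i, l i ≠ p) → Lo Γ c a x x (.span R {t}) (.span R {t}) p) :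
    P004F.Alg.Iso R t (fun j : ι × Fin 2 => x (φ j.1 ^ 2) j.2)
      fun j => sc w c r ψ x (l j.1) (φ j.1) (τ j.1) j.2 := fun A _ _ β h1 h2 => by
  have := iso_eta H G hp S X (Z := .span R {t}) hl K tr 1 (by simpa only [one_smul] using lo)
    (f := fun j => x (φ j.1 ^ 2) j.2) (s := fun j => sc w c r ψ x (l j.1) (φ j.1) (τ j.1) j.2)
    (fun i k => by simp) (fun i k => by simp) β (fun z hz => ?_) fun z hz u => ?_
  · rwa [one_smul] at this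
  · obtain ⟨b, rfl⟩ := Submodule.mem_span_singleton.1 hz
    rw [map_smul, h1, smul_zero]
  · obtain ⟨b, rfl⟩ := Submodule.mem_span_singleton.1 hz
    rw [map_smul, h2, smul_zero]

open Matrix in
/-- **isotropy** as a matrix identity: `π` presents the module `M`, the rows of `B` span the
preimage of `Z` -/
theorem iso_mat (H : Rw N w) (G : Gd Γ T a) (hp : pp ∈ T) (S : Sd N Γ c r ψ a) (X : Cc Γ T a x)
    {Z : Submodule R M} (hl : Function.Injective l)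
    (K : ∀ i, Kl N Γ a (l i) (P i) (φ i) (τ i)) (tr : ∀ i, (r (φ i)).trace = 0) (η : R)
    (lo : ∀ p ∈ T, (∀ i, l i ≠ p) → Lo Γ c a (η • x) x Z Z p)
    {I κ : Type} [Fintype I] [Fintype κ] (B : Matrix κ I R) (π : (I → R) →ₗ[R] M)
    (h1 : Function.Surjective π) (h2 : ∀ v, π v ∈ Z → v ∈ Submodule.span R (Set.range B))
    {f s : ι × Fin 2 → I → R} (hf : ∀ i k, π (f (i, k)) - x (φ i ^ 2) k ∈ Z)
    (hs : ∀ i k, π (s (i, k)) - sc w c r ψ x (l i) (φ i) (τ i) k ∈ Z) :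
    ∃ U U' : Matrix κ I R,
      η • ∑ j, (vecMulVec (f j) (s j) + vecMulVec (s j) (f j)) = Bᵀ * U + U'ᵀ * B := by
  refine mat B f s η fun A _ _ β b1 b2 => ?_
  have k1 : ∀ v, π v ∈ Z → β v = 0 := fun v hv =>
    (Submodule.span_le (p := LinearMap.ker β)).2 (Set.range_subset_iff.2 b1) (h2 v hv)
  have k2 : ∀ v, π v ∈ Z → β.flip v = 0 := fun v hv =>
    (Submodule.span_le (p := LinearMap.ker β.flip)).2
      (Set.range_subset_iff.2 fun k => LinearMap.ext (b2 k)) (h2 v hv)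
  let e := π.quotKerEquivOfSurjective h1
  let d : ∀ {B : Type} [AddCommGroup B] [Module R B] (g : (I → R) →ₗ[R] B),
      (∀ v, π v = 0 → g v = 0) → M →ₗ[R] B := fun g hg =>
    (LinearMap.ker π).liftQ g hg ∘ₗ e.symm.toLinearMap
  have hd : ∀ {B : Type} [AddCommGroup B] [Module R B] (g : (I → R) →ₗ[R] B) hg v,
      d g hg (π v) = g v := fun g hg v => by
    have : e.symm (π v) = Submodule.Quotient.mk v := e.symm_apply_eq.2 rfl
    change (LinearMap.ker π).liftQ g hg (e.symm (π v)) = _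
    rw [this]; rfl
  let β1 := d β fun v hv => k1 v (hv ▸ Z.zero_mem)
  have q : ∀ v, π v ∈ Z → β1.flip v = 0 := fun v hv => LinearMap.ext fun u => by
    obtain ⟨u, rfl⟩ := h1 u
    rw [LinearMap.flip_apply, hd]
    exact LinearMap.congr_fun (k2 v hv) u
  let β2 := (d β1.flip fun v hv => q v (hv ▸ Z.zero_mem)).flip
  have hb : ∀ u v, β2 (π u) (π v) = β u v := fun u v => by
    rw [LinearMap.flip_apply, hd, LinearMap.flip_apply, hd]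
  have := iso_eta H G hp S X hl K tr η lo (f := π ∘ f) (s := π ∘ s) hf hs β2 (fun z hz => ?_)
    fun z hz u => ?_
  · simpa only [Function.comp, hb] using this
  · obtain ⟨z, rfl⟩ := h1 z
    refine LinearMap.ext fun u => ?_
    obtain ⟨u, rfl⟩ := h1 u
    rw [hb, k1 z hz]; rfl
  · obtain ⟨z, rfl⟩ := h1 z
    obtain ⟨u, rfl⟩ := h1 u
    rw [hb]
    exact LinearMap.congr_fun (k2 z hz) u

end Vale.Agent.P014Y.F.Ra
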